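import Mathlib
import Vale.Agent.Lib.P226.LevelOne

open MeasureTheory ProbabilityTheory

namespace Vale.Agent.Results.P226.SmallCells

open Vale.Agent.Lib.P226

/-- The propeller inequality holds, in every dimension `d` and for every number `k` of cells,
for all measurable partitions of `ℝ^d` all of whose cells have Gaussian measure at most `1/16`
(with the stronger constant `log 2 / 2 < 9 / (8 π)`). -/
theorem result (d k : ℕ) (A : Fin k → Set (EuclideanSpace ℝ (Fin d)))
    (hmeas : ∀ i, MeasurableSet (A i))
    (hdisj : Pairwise (Function.onFun Disjoint A))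
    (_hcover : ⋃ i, A i = Set.univ)
    (hsmall : ∀ i, (stdGaussian (EuclideanSpace ℝ (Fin d))).real (A i) ≤ 1 / 16) :
    ∑ i, ‖∫ x in A i, x ∂(stdGaussian (EuclideanSpace ℝ (Fin d)))‖ ^ 2 ≤ Real.log 2 / 2 ∧
      Real.log 2 / 2 < 9 / (8 * Real.pi) := by
  constructor
  · set γ := stdGaussian (EuclideanSpace ℝ (Fin d)) with hγ
    have hcell : ∀ i, ‖∫ x in A i, x ∂γ‖ ^ 2 ≤ γ.real (A i) * (Real.log 2 / 2) := by
      intro i
      rcases (measureReal_nonneg (μ := γ) (s := A i)).eq_or_lt with h0 | hpos
      · have hz : γ (A i) = 0 := by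
          have := h0.symm
          rw [measureReal_eq_zero_iff] at this
          exact this
        have : ∫ x in A i, x ∂γ = 0 := by
          rw [Measure.restrict_eq_zero.2 hz]; simp
        rw [this, ← h0]; simp
      · exact (level_one (A i) hpos).trans (small_bound _ hpos (hsmall i))
    have hsum : ∑ i, γ.real (A i) ≤ 1 := by
      rw [← measureReal_iUnion_fintype hdisj hmeas]
      exact measureReal_le_one
    have hl2 : 0 ≤ Real.log 2 / 2 := by
      have := Real.log_two_gt_d9; linarith
    calc ∑ i, ‖∫ x in A i, x ∂γ‖ ^ 2 ≤ ∑ i, γ.real (A i) * (Real.log 2 / 2) :=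
          Finset.sum_le_sum (fun i _ => hcell i)
      _ = (∑ i, γ.real (A i)) * (Real.log 2 / 2) := by rw [Finset.sum_mul]
      _ ≤ 1 * (Real.log 2 / 2) := mul_le_mul_of_nonneg_right hsum hl2
      _ = Real.log 2 / 2 := one_mul _
  · have h1 := Real.log_two_lt_d9
    have h2 := Real.pi_lt_d2
    have h3 := Real.pi_pos
    rw [lt_div_iff₀ (by positivity)]
    nlinarith

end Vale.Agent.Results.P226.SmallCells
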