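import Mathlib
import Vale.Agent.Lib.P226.Cell

open MeasureTheory ProbabilityTheory

namespace Vale.Agent.Results.P226.Universal

open Vale.Agent.Lib.P226.Cell

/-- A universal upper bound for the propeller functional: for all `d`, `k` and every measurable
partition `A_1, ..., A_k` of `ℝ^d`, `∑ |∫_{A_i} x dγ_d|^2 ≤ 0.42`; in fact every cell satisfies
`|∫_{A_i} x dγ_d|^2 ≤ 0.42 γ_d(A_i)`. -/
theorem result (d k : ℕ) (A : Fin k → Set (EuclideanSpace ℝ (Fin d)))
    (hmeas : ∀ i, MeasurableSet (A i))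
    (hdisj : Pairwise (Function.onFun Disjoint A))
    (_hcover : ⋃ i, A i = Set.univ) :
    (∀ i, ‖∫ x in A i, x ∂(stdGaussian (EuclideanSpace ℝ (Fin d)))‖ ^ 2 ≤
      0.42 * (stdGaussian (EuclideanSpace ℝ (Fin d))).real (A i)) ∧
    ∑ i, ‖∫ x in A i, x ∂(stdGaussian (EuclideanSpace ℝ (Fin d)))‖ ^ 2 ≤ 0.42 := by
  refine ⟨fun i => cell_bound (A i), ?_⟩
  set γ := stdGaussian (EuclideanSpace ℝ (Fin d)) with hγ
  have hsum : ∑ i, γ.real (A i) ≤ 1 := by
    rw [← measureReal_iUnion_fintype hdisj hmeas]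
    exact measureReal_le_one
  calc ∑ i, ‖∫ x in A i, x ∂γ‖ ^ 2 ≤ ∑ i, 0.42 * γ.real (A i) :=
        Finset.sum_le_sum (fun i _ => cell_bound (A i))
    _ = 0.42 * ∑ i, γ.real (A i) := by rw [Finset.mul_sum]
    _ ≤ 0.42 * 1 := mul_le_mul_of_nonneg_left hsum (by norm_num)
    _ = 0.42 := mul_one _

end Vale.Agent.Results.P226.Universal
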