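import Mathlib
import Vale.Agent.Results.P226.SmallCells
import Vale.Agent.Results.P226.Universal

open MeasureTheory ProbabilityTheory

namespace Vale.Agent.Results.P226.Combined

/-- Two bounds for the propeller functional, valid in every dimension `d` and for every number `k`
of cells.  (1) every cell of a measurable partition satisfies `|∫_{A_i} x dγ_d|^2 ≤ 0.42 γ_d(A_i)`;
(2) hence `∑ |∫_{A_i} x dγ_d|^2 ≤ 0.42`; (3) if all cells have Gaussian measure at most `1/16`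
then `∑ |∫_{A_i} x dγ_d|^2 ≤ log 2 / 2`; (4) `log 2 / 2 < 9 / (8 π)`. -/
theorem result (d k : ℕ) (A : Fin k → Set (EuclideanSpace ℝ (Fin d)))
    (hmeas : ∀ i, MeasurableSet (A i))
    (hdisj : Pairwise (Function.onFun Disjoint A))
    (hcover : ⋃ i, A i = Set.univ) :
    (∀ i, ‖∫ x in A i, x ∂(stdGaussian (EuclideanSpace ℝ (Fin d)))‖ ^ 2 ≤
      0.42 * (stdGaussian (EuclideanSpace ℝ (Fin d))).real (A i)) ∧
    ∑ i, ‖∫ x in A i, x ∂(stdGaussian (EuclideanSpace ℝ (Fin d)))‖ ^ 2 ≤ 0.42 ∧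
    ((∀ i, (stdGaussian (EuclideanSpace ℝ (Fin d))).real (A i) ≤ 1 / 16) →
      ∑ i, ‖∫ x in A i, x ∂(stdGaussian (EuclideanSpace ℝ (Fin d)))‖ ^ 2 ≤ Real.log 2 / 2) ∧
    Real.log 2 / 2 < 9 / (8 * Real.pi) := by
  have h1 := Vale.Agent.Results.P226.Universal.result d k A hmeas hdisj hcover
  refine ⟨h1.1, h1.2, fun hs =>
    (Vale.Agent.Results.P226.SmallCells.result d k A hmeas hdisj hcover hs).1, ?_⟩
  have h2 := Real.log_two_lt_d9
  have h3 := Real.pi_lt_d2
  have h4 := Real.pi_pos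
  rw [lt_div_iff₀ (by positivity)]
  nlinarith

end Vale.Agent.Results.P226.Combined
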