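import Mathlib
import Vale.Agent.Lib.P226.Merge
import Vale.Agent.Results.P226.Combined

open MeasureTheory ProbabilityTheory

namespace Vale.Agent.Results.P226.AllBounds

/-- `A` is a partition of `ℝ^d` into `k` measurable cells. -/
def IsPart {d k : ℕ} (A : Fin k → Set (EuclideanSpace ℝ (Fin d))) : Prop :=
  (∀ i, MeasurableSet (A i)) ∧ Pairwise (Function.onFun Disjoint A) ∧ ⋃ i, A i = Set.univ

/-- The propeller functional: the sum of the squared norms of the Gaussian first moments. -/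
noncomputable def Fsum {d k : ℕ} (A : Fin k → Set (EuclideanSpace ℝ (Fin d))) : ℝ :=
  ∑ i, ‖∫ x in A i, x ∂(stdGaussian (EuclideanSpace ℝ (Fin d)))‖ ^ 2

/-- (1) one-cell bound, (2) universal bound `0.42`, (3) the bound `log 2 / 2` for partitions into
cells of measure at most `1/16`, (4) `log 2 / 2 < 9 / (8 π)`, (5) merging step: a bound `c` for all
partitions into `n ≥ 2` cells gives the bound `(n+1) n / ((n-1)(n+2)) c` for `n + 1` cells,
(6) in particular the propeller inequality for four cells gives `5 / (4 π)` for five cells,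
(7) `5 / (4 π) < 0.398`. -/
theorem result :
    (∀ (d k : ℕ) (A : Fin k → Set (EuclideanSpace ℝ (Fin d))), IsPart A →
      (∀ i, ‖∫ x in A i, x ∂(stdGaussian (EuclideanSpace ℝ (Fin d)))‖ ^ 2 ≤
        0.42 * (stdGaussian (EuclideanSpace ℝ (Fin d))).real (A i)) ∧
      Fsum A ≤ 0.42 ∧
      ((∀ i, (stdGaussian (EuclideanSpace ℝ (Fin d))).real (A i) ≤ 1 / 16) →
        Fsum A ≤ Real.log 2 / 2)) ∧
    Real.log 2 / 2 < 9 / (8 * Real.pi) ∧
    (∀ (d n : ℕ), 2 ≤ n → ∀ c : ℝ,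
      (∀ B : Fin n → Set (EuclideanSpace ℝ (Fin d)), IsPart B → Fsum B ≤ c) →
      ∀ A : Fin (n + 1) → Set (EuclideanSpace ℝ (Fin d)), IsPart A →
        Fsum A ≤ ((n + 1 : ℝ) * n) / (((n : ℝ) - 1) * (n + 2)) * c) ∧
    (∀ d : ℕ,
      (∀ B : Fin 4 → Set (EuclideanSpace ℝ (Fin d)), IsPart B → Fsum B ≤ 9 / (8 * Real.pi)) →
      ∀ A : Fin 5 → Set (EuclideanSpace ℝ (Fin d)), IsPart A → Fsum A ≤ 5 / (4 * Real.pi)) ∧
    5 / (4 * Real.pi) < 0.398 := by
  have hstep : ∀ (d n : ℕ), 2 ≤ n → ∀ c : ℝ,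
      (∀ B : Fin n → Set (EuclideanSpace ℝ (Fin d)), IsPart B → Fsum B ≤ c) →
      ∀ A : Fin (n + 1) → Set (EuclideanSpace ℝ (Fin d)), IsPart A →
        Fsum A ≤ ((n + 1 : ℝ) * n) / (((n : ℝ) - 1) * (n + 2)) * c := by
    intro d n hn c hc A hA
    obtain ⟨B, hB1, hB2, hB3, hB4⟩ :=
      Vale.Agent.Lib.P226.Merge.merge_step (by omega) A hA.1 hA.2.1 hA.2.2
    have hBc : Fsum B ≤ c := hc B ⟨hB1, hB2, hB3⟩
    have h1 : (1 - 2 / ((n + 1 : ℝ) * n)) * Fsum A ≤ c := le_trans hB4 hBc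
    have hN : (2 : ℝ) ≤ n := by exact_mod_cast hn
    have hpos : (0 : ℝ) < (n + 1 : ℝ) * n := by positivity
    have h2 : ((n + 1 : ℝ) * n - 2) * Fsum A ≤ (n + 1 : ℝ) * n * c := by
      have h3 := mul_le_mul_of_nonneg_left h1 hpos.le
      have e : (n + 1 : ℝ) * n * ((1 - 2 / ((n + 1 : ℝ) * n)) * Fsum A)
          = ((n + 1 : ℝ) * n - 2) * Fsum A := by
        field_simp
      linarith
    have hden : (0 : ℝ) < ((n : ℝ) - 1) * (n + 2) := by
      apply mul_pos <;> linarith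
    rw [div_mul_eq_mul_div, le_div_iff₀ hden]
    have e2 : ((n : ℝ) - 1) * (n + 2) = (n + 1 : ℝ) * n - 2 := by ring
    rw [e2]
    linarith
  refine ⟨?_, ?_, hstep, ?_, ?_⟩
  · intro d k A hA
    have h := Vale.Agent.Results.P226.Combined.result d k A hA.1 hA.2.1 hA.2.2
    exact ⟨h.1, h.2.1, h.2.2.1⟩
  · have h2 := Real.log_two_lt_d9
    have h3 := Real.pi_lt_d2
    have h4 := Real.pi_pos
    rw [lt_div_iff₀ (by positivity)]
    nlinarith
  · intro d hB A hA
    have h := hstep d 4 (by norm_num) _ hB A hA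
    have e : (((4 : ℕ) + 1 : ℝ) * (4 : ℕ)) / ((((4 : ℕ) : ℝ) - 1) * ((4 : ℕ) + 2))
        * (9 / (8 * Real.pi)) = 5 / (4 * Real.pi) := by
      have := Real.pi_pos
      push_cast
      field_simp
      ring
    rw [e] at h
    exact h
  · have h3 := Real.pi_gt_d4
    rw [div_lt_iff₀ (by positivity)]
    nlinarith

end Vale.Agent.Results.P226.AllBounds
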